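import Vale.Agent.P131.Graded

/-!
# P131: operators raising a grading by finite-dimensional pieces
-/

namespace Vale.Agent.Results.P131.GradedOperators

open Vale.Agent.P131
open scoped InnerProductSpace

/-- A nonzero operator of degree one for a grading by finite-dimensional orthogonal pieces has a
nontrivial hyperinvariant subspace, unless it is invertible with powers that are uniformly
conformal on the pieces. -/
theorem result {H : Type*} [NormedAddCommGroup H] [InnerProductSpace ℂ H] [CompleteSpace H]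
    (T : H →L[ℂ] H) (hT : T ≠ 0) (E : ℤ → Submodule ℂ H)
    (hfin : ∀ n, FiniteDimensional ℂ (E n))
    (horth : ∀ i j, i ≠ j → ∀ x ∈ E i, ∀ y ∈ E j, ⟪x, y⟫_ℂ = 0)
    (hdense : (⨆ n, E n).topologicalClosure = ⊤)
    (hdeg : ∀ n, ∀ x ∈ E n, T x ∈ E (n + 1)) :
    HasHyperinvariantSubspace T ∨
      IsUnit T ∧ ∃ M : ℝ, ∀ (j : ℤ) (k : ℕ), ∀ v ∈ E j, ∀ w ∈ E j,
        ‖v‖ = 1 → ‖w‖ = 1 → ‖(T ^ k) v‖ ≤ M * ‖(T ^ k) w‖ := by
  by_cases h : HasHyperinvariantSubspace T
  · exact Or.inl h
  · exact Or.inr ⟨(Grading.mk E hfin horth hdense hdeg).isUnit h hT,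
      (Grading.mk E hfin horth hdense hdeg).conformal h hT⟩

end Vale.Agent.Results.P131.GradedOperators
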