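import Vale.Agent.P131.Shift
import Vale.Agent.P131.Tents

/-!
# P131: hyperinvariant subspaces from orbit growth below the norms of the powers
-/

namespace Vale.Agent.Results.P131.OrbitGrowth

open Vale.Agent.P131
open scoped InnerProductSpace
open Filter Topology ContinuousLinearMap

/-- A two-orbit growth criterion for invertible operators, and its consequence for invertible
bilateral weighted shifts, with weights meeting its hypothesis. -/
theorem result {H : Type*} [NormedAddCommGroup H] [InnerProductSpace ℂ H] [CompleteSpace H] :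
    (∀ (U : (H →L[ℂ] H)ˣ) (a a' : H) (g : ℤ → ℝ), ⟪a', a⟫_ℂ ≠ 0 →
      let x : ℤ → H := fun j => ((U ^ j : (H →L[ℂ] H)ˣ) : H →L[ℂ] H) a
      let y : ℤ → H := fun j => adjoint ((U ^ (-j) : (H →L[ℂ] H)ˣ) : H →L[ℂ] H) a'
      (∀ z, Tendsto (fun j => ‖⟪z, x j⟫_ℂ‖ / ‖x j‖) cofinite (𝓝 0)) →
      (∀ z, Tendsto (fun j => ‖⟪z, y j⟫_ℂ‖ / ‖y j‖) cofinite (𝓝 0)) →
      (∀ n, ∃ᶠ j in cofinite, ‖x j‖ * ‖y (j + n)‖ ≤ g n) →
      (∀ k, Tendsto (fun j => g (k - j) / ‖x j‖) cofinite (𝓝 0)) →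
      (∀ k, Tendsto (fun j => g (j - k) / ‖y j‖) cofinite (𝓝 0)) →
      HasHyperinvariantSubspace (U : H →L[ℂ] H)) ∧
    (∀ (e : HilbertBasis ℤ ℂ H) (W : ℤ → ℝ) (T : H →L[ℂ] H), (∀ n, 0 < W n) →
      (∀ n, T (e n) = ((W (n + 1) / W n : ℝ) : ℂ) • e (n + 1)) → IsUnit T →
      let Ω : ℤ → ℝ := fun n => limsup (fun j => W (j + n) / W j) cofinite
      Tendsto (fun j => W j / Ω j) cofinite (𝓝 0) →
      Tendsto (fun j => 1 / (W j * Ω (-j))) cofinite (𝓝 0) →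
      HasHyperinvariantSubspace T) ∧
    ∃ W : ℤ → ℝ, (∀ n, 0 < W n ∧ W (n + 1) ≤ 2 * W n ∧ W n ≤ 2 * W (n + 1)) ∧
      Tendsto (fun j => W j / limsup (fun i => W (i + j) / W i) cofinite) cofinite (𝓝 0) ∧
      Tendsto (fun j => 1 / (W j * limsup (fun i => W (i + -j) / W i) cofinite)) cofinite
        (𝓝 0) := by
  refine ⟨?_, ?_, Orbit.exists_weights⟩
  · intro U a a' g hp x y h1 h2 h3 h4 h5
    exact Orbit.Data.hasHyperinvariantSubspace (g := g) ⟨h1, h2, h3, h4, h5⟩ hp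
  · intro e W T hW hT hu Ω h1 h2
    obtain ⟨U, rfl⟩ := hu
    refine (Orbit.shift_data e hW hT h1 h2).hasHyperinvariantSubspace ?_
    simp [inner_self_eq_norm_sq_to_K, e.orthonormal.1]

end Vale.Agent.Results.P131.OrbitGrowth
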